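import Vale.Agent.P022.H694.Desc

/-!
# P022: actions of `Aut(ℂ)` on finite sets of series factor through a number field (helper694)
-/

namespace Vale.Agent.P022.H694

section general

variable {F K : Type} [Field F] [Field K] [Algebra F K] [IsAlgClosed K]

/-- Automorphisms of an intermediate field over `F` extend to `K` over `F`. -/
theorem exists_ext (M : IntermediateField F K) (τ : M ≃ₐ[F] M) :
    ∃ σ : K ≃ₐ[F] K, ∀ x : M, σ x = τ x := by
  obtain ⟨σ, hσ⟩ := exists_extend (F := M) (K := K) τ.toRingEquiv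
  have h1 : ∀ x : M, σ x = τ x := fun x => hσ x
  refine ⟨AlgEquiv.ofRingEquiv (f := σ) fun a => ?_, h1⟩
  have h2 := h1 (algebraMap F M a)
  rw [τ.commutes] at h2
  exact h2

/-- The roots of the minimal polynomial are conjugate. -/
theorem exists_root {x y : K} (hx : IsAlgebraic F x) (hy : Polynomial.aeval y (minpoly F x) = 0) :
    ∃ g : K ≃ₐ[F] K, g x = y := by
  have hy' : IsAlgebraic F y := ⟨minpoly F x, minpoly.ne_zero hx.isIntegral, hy⟩
  let x' : algebraicClosure F K := ⟨x, mem_algebraicClosure_iff.2 hx⟩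
  let y' : algebraicClosure F K := ⟨y, mem_algebraicClosure_iff.2 hy'⟩
  have h1 : IsAlgebraic F x' := Algebra.IsAlgebraic.isAlgebraic x'
  have h2 : Polynomial.aeval y' (minpoly F x') = 0 := by
    have h3 := Polynomial.aeval_algHom_apply (algebraicClosure F K).val y' (minpoly F x')
    rw [IntermediateField.minpoly_eq] at h3
    have h4 : Polynomial.aeval ((algebraicClosure F K).val y')
        (minpoly F ((x' : algebraicClosure F K) : K)) = 0 := hy
    rw [h4] at h3
    apply (algebraicClosure F K).val.injective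
    rw [map_zero, IntermediateField.minpoly_eq]
    exact h3.symm
  obtain ⟨τ, hτ⟩ := minpoly.exists_algEquiv_of_root' h1 h2
  obtain ⟨σ, hσ⟩ := exists_ext _ τ
  refine ⟨σ, ?_⟩
  have h3 := hσ x'
  rw [hτ] at h3
  exact h3

/-- A nonzero space of functions stable under a group of automorphisms contains a nonzero function
with fixed values. -/
theorem exists_fixed {ι : Type} (W : Submodule K (ι → K)) [FiniteDimensional K W]
    (H : Subgroup (K ≃ₐ[F] K)) (hW : ∀ σ ∈ H, ∀ f ∈ W, (fun i => σ (f i)) ∈ W)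
    (h0 : ∃ f ∈ W, f ≠ 0) : ∃ f ∈ W, f ≠ 0 ∧ ∀ i, ∀ σ ∈ H, σ (f i) = f i := by
  by_contra hcon
  push Not at hcon
  have h1 : W = ⊥ := by
    rw [span_fixed W H hW, Submodule.span_eq_bot]
    intro f hf
    by_contra hf0
    obtain ⟨i, σ, hσ, h⟩ := hcon f hf.1 hf0
    exact h (hf.2 i σ hσ)
  obtain ⟨f, hf, hf0⟩ := h0
  rw [h1] at hf
  exact hf0 ((Submodule.mem_bot K).1 hf)

/-- Automorphisms of an algebraic closure of `F` with an embedding in `K` extend to `K`. -/
theorem exists_lift {M : Type} [Field M] [Algebra F M] (i : M →ₐ[F] K) (τ : M ≃ₐ[F] M) :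
    ∃ σ : K ≃ₐ[F] K, ∀ x, σ (i x) = i (τ x) := by
  let : Algebra M K := i.toRingHom.toAlgebra
  obtain ⟨σ, hσ⟩ := exists_extend (F := M) (K := K) τ.toRingEquiv
  have h1 : ∀ x : M, σ (i x) = i (τ x) := fun x => hσ x
  refine ⟨AlgEquiv.ofRingEquiv (f := σ) fun a => ?_, h1⟩
  have h2 := h1 (algebraMap F M a)
  rw [τ.commutes, i.commutes] at h2
  exact h2

omit [IsAlgClosed K] in
/-- Algebraic elements come from the algebraic closure. -/
theorem mem_range {M : Type} [Field M] [Algebra F M] [IsAlgClosed M] (i : M →ₐ[F] K) {x : K}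
    (hx : IsAlgebraic F x) : ∃ y, i y = x := by
  let : Algebra M K := i.toRingHom.toAlgebra
  have : IsScalarTower F M K := IsScalarTower.of_algebraMap_eq fun a => (i.commutes a).symm
  obtain ⟨y, hy⟩ := hx.isIntegral.mem_range_algebraMap_of_minpoly_splits (K := M)
    (IsAlgClosed.splits _)
  exact ⟨y, hy⟩

/-- An action that factors through a finite extension comes from the absolute Galois group. -/
theorem exists_perm {M : Type} [Field M] [Algebra F M] [IsAlgClosed M] (i : M →ₐ[F] K)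
    {V : Type} [MulAction (K ≃ₐ[F] K) V] (L : IntermediateField F K) [FiniteDimensional F L]
    (hL : ∀ σ : K ≃ₐ[F] K, (∀ x ∈ L, σ x = x) → ∀ v : V, σ • v = v) :
    ∃ ρ : (M ≃ₐ[F] M) →* Equiv.Perm V,
      (∀ (σ : K ≃ₐ[F] K) (τ : M ≃ₐ[F] M), (∀ x, σ (i x) = i (τ x)) → ∀ v, ρ τ v = σ • v) ∧
      (∀ τ : M ≃ₐ[F] M, (∀ y, i y ∈ L → τ y = y) → ρ τ = 1) ∧
      IsOpen (ρ.ker : Set (M ≃ₐ[F] M)) := by
  have hr : ∀ x ∈ L, ∃ y, i y = x := fun x hx => mem_range i (by
    have h1 : IsAlgebraic F (⟨x, hx⟩ : L) := Algebra.IsAlgebraic.isAlgebraic _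
    exact (isAlgebraic_algebraMap_iff (algebraMap L K).injective).2 h1)
  choose ext hext using fun τ : M ≃ₐ[F] M => exists_lift i τ
  have key : ∀ (σ : K ≃ₐ[F] K) (τ : M ≃ₐ[F] M), (∀ x, σ (i x) = i (τ x)) →
      ∀ v : V, ext τ • v = σ • v := by
    intro σ τ h v
    have h1 : ∀ x ∈ L, (σ⁻¹ * ext τ) x = x := by
      intro x hx
      obtain ⟨y, rfl⟩ := hr x hx
      change σ⁻¹ (ext τ (i y)) = i y
      rw [hext, ← h]
      exact σ.symm_apply_apply _
    have h2 := hL _ h1 v
    rw [mul_smul, inv_smul_eq_iff] at h2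
    exact h2
  let ρ : (M ≃ₐ[F] M) →* Equiv.Perm V :=
    { toFun := fun τ => MulAction.toPermHom (K ≃ₐ[F] K) V (ext τ)
      map_one' := by
        ext v
        change ext 1 • v = v
        rw [key 1 1 (fun x => rfl) v, one_smul]
      map_mul' := fun τ τ' => by
        ext v
        change ext (τ * τ') • v = ext τ • ext τ' • v
        rw [← mul_smul]
        refine key _ _ (fun x => ?_) v
        change ext τ (ext τ' (i x)) = i (τ (τ' x))
        rw [hext, hext] }
  have hρ : ∀ (σ : K ≃ₐ[F] K) (τ : M ≃ₐ[F] M), (∀ x, σ (i x) = i (τ x)) →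
      ∀ v, ρ τ v = σ • v := fun σ τ h v => key σ τ h v
  have hker : ∀ τ : M ≃ₐ[F] M, (∀ y, i y ∈ L → τ y = y) → ρ τ = 1 := by
    intro τ h
    ext v
    change ext τ • v = v
    refine hL _ (fun x hx => ?_) v
    obtain ⟨y, rfl⟩ := hr x hx
    rw [hext, h y hx]
  refine ⟨ρ, hρ, hker, ?_⟩
  let L' : IntermediateField F M := L.comap i
  let g : L' →ₗ[F] L :=
    { toFun := fun x => ⟨i x, x.2⟩
      map_add' := fun x y => Subtype.ext (map_add i (x : M) y)
      map_smul' := fun a x => Subtype.ext (map_smul i a (x : M)) }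
  have hg : Function.Injective g := by
    intro x y h
    exact Subtype.ext (i.injective (congrArg Subtype.val h))
  have : FiniteDimensional F L' := FiniteDimensional.of_injective g hg
  refine Subgroup.isOpen_mono (H₁ := L'.fixingSubgroup) (fun τ hτ => ?_)
    (IntermediateField.fixingSubgroup_isOpen L')
  rw [MonoidHom.mem_ker]
  refine hker τ fun y hy => ?_
  exact (IntermediateField.mem_fixingSubgroup_iff _ _).1 hτ y hy

variable [CharZero F]

/-- The fixed field of a normal subgroup of finite index is a finite Galois extension. -/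
theorem fixed (N : Subgroup (K ≃ₐ[F] K)) [N.FiniteIndex] [N.Normal] :
    IsGalois F (IntermediateField.fixedField N) ∧
      FiniteDimensional F (IntermediateField.fixedField N) ∧
      Module.finrank F (IntermediateField.fixedField N) ≤ N.index := by
  classical
  set L := IntermediateField.fixedField N with hL
  have hmem : ∀ x : K, x ∈ L ↔ ∀ σ ∈ N, σ x = x := fun x =>
    IntermediateField.mem_fixedField_iff N x
  have halg : ∀ x : K, x ∈ L → IsAlgebraic F x := fun x hx =>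
    isAlgebraic_of_fixed N ((hmem x).1 hx)
  have hconj : ∀ x y : K, x ∈ L → Polynomial.aeval y (minpoly F x) = 0 → y ∈ L := by
    intro x y hx hy
    obtain ⟨g, rfl⟩ := exists_root (halg x hx) hy
    rw [hmem]
    intro n hn
    have h1 : g⁻¹ * n * g ∈ N := by
      have := (inferInstance : N.Normal).conj_mem n hn g⁻¹
      simpa using this
    have h2 := (hmem x).1 hx _ h1
    have h3 : g ((g⁻¹ * n * g) x) = n (g x) := by
      change (g * (g⁻¹ * n * g)) x = (n * g) x
      congr 1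
      group
    rw [← h3, h2]
  have hint : Algebra.IsAlgebraic F L := ⟨fun x => by
    have := halg x x.2
    exact (isAlgebraic_algebraMap_iff (algebraMap L K).injective).1 this⟩
  have hnor : Normal F L := by
    rw [normal_iff]
    intro x
    refine ⟨(hint.isAlgebraic x).isIntegral, ?_⟩
    rw [IntermediateField.minpoly_eq]
    refine IntermediateField.splits_of_splits (IsAlgClosed.splits _) fun y hy => ?_
    exact hconj x y x.2 (Polynomial.aeval_eq_zero_of_mem_rootSet hy)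
  have hgal : IsGalois F L := ⟨⟩
  choose ext hext using fun τ : L ≃ₐ[F] L => exists_ext L τ
  let f : Gal(L/F) → (K ≃ₐ[F] K) ⧸ N := fun τ => (ext τ : (K ≃ₐ[F] K) ⧸ N)
  have hf : Function.Injective f := by
    intro τ τ' h
    have h1 : (ext τ)⁻¹ * ext τ' ∈ N := QuotientGroup.eq.1 h
    ext x
    have h2 := (hmem x).1 x.2 _ h1
    have h3 : ext τ' x = ext τ x := by
      have := congrArg (ext τ) h2
      change (ext τ * ((ext τ)⁻¹ * ext τ')) x = _ at this
      rw [mul_inv_cancel_left] at this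
      exact this
    rw [hext, hext] at h3
    exact h3.symm
  have hfin : Finite Gal(L/F) := Finite.of_injective f hf
  have hfd : FiniteDimensional F L := IsGalois.finiteDimensional_of_finite F L
  refine ⟨hgal, hfd, ?_⟩
  rw [← IsGalois.card_aut_eq_finrank]
  exact Nat.card_le_card_of_injective f hf

/-- An element fixed by all automorphisms over `F` lies in `F`. -/
theorem mem_of_fixed {x : K} (hx : ∀ σ : K ≃ₐ[F] K, σ x = x) : ∃ a : F, algebraMap F K a = x := by
  obtain ⟨-, h1, h2⟩ := fixed (F := F) (K := K) ⊤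
  rw [Subgroup.index_top] at h2
  have h3 : Module.finrank F (IntermediateField.fixedField (⊤ : Subgroup (K ≃ₐ[F] K))) = 1 :=
    le_antisymm h2 Module.finrank_pos
  rw [IntermediateField.finrank_eq_one_iff] at h3
  have h4 : x ∈ IntermediateField.fixedField (⊤ : Subgroup (K ≃ₐ[F] K)) :=
    (IntermediateField.mem_fixedField_iff _ x).2 fun σ _ => hx σ
  rw [h3] at h4
  exact IntermediateField.mem_bot.1 h4

/-- A finite-dimensional space of functions stable under all automorphisms over `F` is spanned by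
functions with values in `F`. -/
theorem span_rat {ι : Type} (W : Submodule K (ι → K)) [FiniteDimensional K W]
    (hW : ∀ σ : K ≃ₐ[F] K, ∀ f ∈ W, (fun i => σ (f i)) ∈ W) :
    W = Submodule.span K {f | f ∈ W ∧ ∃ g : ι → F, ∀ i, f i = algebraMap F K (g i)} := by
  refine le_antisymm ?_ (Submodule.span_le.2 fun f hf => hf.1)
  conv_lhs => rw [span_fixed W (⊤ : Subgroup (K ≃ₐ[F] K)) fun σ _ => hW σ]
  refine Submodule.span_mono fun f hf => ⟨hf.1, ?_⟩
  choose g hg using fun i => mem_of_fixed (F := F) fun σ => hf.2 i σ (Subgroup.mem_top σ)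
  exact ⟨g, fun i => (hg i).symm⟩

/-- An action of the automorphisms of `K` on a finite set whose points are represented by nonzero
functions in finite-dimensional spaces, compatibly with the values: it factors through a finite
Galois extension of `F`. -/
theorem exists_field {ι V : Type} [Finite V] [MulAction (K ≃ₐ[F] K) V]
    (W : V → Submodule K (ι → K)) [∀ v, FiniteDimensional K (W v)]
    (h0 : ∀ v, ∃ f ∈ W v, f ≠ 0)
    (hσ : ∀ (σ : K ≃ₐ[F] K) (v : V), ∀ f ∈ W v, (fun i => σ (f i)) ∈ W (σ • v))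
    (hinj : ∀ v v' f, f ∈ W v → f ∈ W v' → f ≠ 0 → v = v') :
    ∃ L : IntermediateField F K, FiniteDimensional F L ∧ IsGalois F L ∧
      (∀ σ : K ≃ₐ[F] K, (∀ x ∈ L, σ x = x) → ∀ v : V, σ • v = v) ∧
      ∀ v : V, ∃ f ∈ W v, f ≠ 0 ∧ ∀ i, f i ∈ L := by
  classical
  let φ := MulAction.toPermHom (K ≃ₐ[F] K) V
  obtain ⟨h1, h2, -⟩ := fixed φ.ker
  have key : ∀ v : V, ∃ f ∈ W v, f ≠ 0 ∧ ∀ i, f i ∈ IntermediateField.fixedField φ.ker := by
    intro v
    have hst : ∀ σ ∈ φ.ker, ∀ f ∈ W v, (fun i => σ (f i)) ∈ W v := by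
      intro σ hs f hf
      have h3 : σ • v = v := by
        have h4 : φ σ v = v := by
          rw [MonoidHom.mem_ker.1 hs]
          rfl
        exact h4
      have h5 := hσ σ v f hf
      rwa [h3] at h5
    obtain ⟨f, hf, hf0, hfix⟩ := exists_fixed (W v) φ.ker hst (h0 v)
    exact ⟨f, hf, hf0, fun i => (IntermediateField.mem_fixedField_iff _ _).2 (hfix i)⟩
  refine ⟨_, h2, h1, fun σ hs v => ?_, key⟩
  obtain ⟨f, hf, hf0, hL⟩ := key v
  have h3 := hσ σ v f hf
  have h4 : (fun i => σ (f i)) = f := funext fun i => hs _ (hL i)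
  rw [h4] at h3
  exact (hinj _ _ f hf h3 hf0).symm

/-- The two statements together: a homomorphism from the absolute Galois group with open kernel. -/
theorem exists_rho {M : Type} [Field M] [Algebra F M] [IsAlgClosed M] (i : M →ₐ[F] K)
    {ι V : Type} [Finite V] [MulAction (K ≃ₐ[F] K) V]
    (W : V → Submodule K (ι → K)) [∀ v, FiniteDimensional K (W v)]
    (h0 : ∀ v, ∃ f ∈ W v, f ≠ 0)
    (hσ : ∀ (σ : K ≃ₐ[F] K) (v : V), ∀ f ∈ W v, (fun i => σ (f i)) ∈ W (σ • v))
    (hinj : ∀ v v' f, f ∈ W v → f ∈ W v' → f ≠ 0 → v = v') :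
    ∃ ρ : (M ≃ₐ[F] M) →* Equiv.Perm V,
      (∀ (σ : K ≃ₐ[F] K) (τ : M ≃ₐ[F] M), (∀ x, σ (i x) = i (τ x)) → ∀ v, ρ τ v = σ • v) ∧
      IsOpen (ρ.ker : Set (M ≃ₐ[F] M)) ∧
      ∀ v : V, ∃ f ∈ W v, f ≠ 0 ∧ ∃ g : ι → M, ∀ j, i (g j) = f j := by
  obtain ⟨L, h1, -, h2, h3⟩ := exists_field W h0 hσ hinj
  obtain ⟨ρ, h4, -, h5⟩ := exists_perm i L h2
  refine ⟨ρ, h4, h5, fun v => ?_⟩
  obtain ⟨f, hf, hf0, hL⟩ := h3 v
  have h6 : ∀ j, ∃ y, i y = f j := fun j => mem_range i (by
    have h1 : IsAlgebraic F (⟨f j, hL j⟩ : L) := Algebra.IsAlgebraic.isAlgebraic _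
    exact (isAlgebraic_algebraMap_iff (algebraMap L K).injective).2 h1)
  choose g hg using h6
  exact ⟨f, hf, hf0, g, hg⟩

end general

/-- The case of the complex numbers. -/
theorem exists_rho_complex (i : AlgebraicClosure ℚ →ₐ[ℚ] ℂ)
    {ι V : Type} [Finite V] [MulAction (ℂ ≃ₐ[ℚ] ℂ) V]
    (W : V → Submodule ℂ (ι → ℂ)) [∀ v, FiniteDimensional ℂ (W v)]
    (h0 : ∀ v, ∃ f ∈ W v, f ≠ 0)
    (hσ : ∀ (σ : ℂ ≃ₐ[ℚ] ℂ) (v : V), ∀ f ∈ W v, (fun i => σ (f i)) ∈ W (σ • v))
    (hinj : ∀ v v' f, f ∈ W v → f ∈ W v' → f ≠ 0 → v = v') :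
    ∃ ρ : (AlgebraicClosure ℚ ≃ₐ[ℚ] AlgebraicClosure ℚ) →* Equiv.Perm V,
      (∀ (σ : ℂ ≃ₐ[ℚ] ℂ) (τ : AlgebraicClosure ℚ ≃ₐ[ℚ] AlgebraicClosure ℚ),
        (∀ x, σ (i x) = i (τ x)) → ∀ v, ρ τ v = σ • v) ∧
      IsOpen (ρ.ker : Set (AlgebraicClosure ℚ ≃ₐ[ℚ] AlgebraicClosure ℚ)) ∧
      ∀ v : V, ∃ f ∈ W v, f ≠ 0 ∧ ∃ g : ι → AlgebraicClosure ℚ, ∀ j, i (g j) = f j :=
  exists_rho i W h0 hσ hinj

end Vale.Agent.P022.H694
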