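import Mathlib

/-!
# P022: descent from `ℂ` to number fields (helper694)

Automorphisms of `ℂ` and finite-dimensional spaces of series stable under them. Letter-free.
-/

open MvPolynomial

namespace Vale.Agent.P022.H694

section general

variable {F K : Type} [Field F] [Field K] [Algebra F K] [IsAlgClosed K]

/-- Automorphisms of the polynomial ring of a transcendence basis extend. -/
theorem exists_of_mv {s : Type} (v : s → K) (hv : IsTranscendenceBasis F v)
    (e : MvPolynomial s F ≃+* MvPolynomial s F) :
    ∃ σ : K ≃+* K, ∀ p, σ (aeval v p) = aeval v (e p) := by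
  let := IsAlgClosed.isAlgClosure_of_transcendence_basis v hv
  let a := hv.1.aevalEquiv
  let e' : Algebra.adjoin F (Set.range v) ≃+* Algebra.adjoin F (Set.range v) :=
    a.symm.toRingEquiv.trans (e.trans a.toRingEquiv)
  refine ⟨IsAlgClosure.equivOfEquiv K K e', fun p => ?_⟩
  have h1 : ∀ p, aeval v p = algebraMap (Algebra.adjoin F (Set.range v)) K (a p) := fun p =>
    (hv.1.algebraMap_aevalEquiv p).symm
  rw [h1 p, IsAlgClosure.equivOfEquiv_algebraMap, h1]
  congr 1
  change a (e (a.symm (a p))) = a (e p)
  rw [AlgEquiv.symm_apply_apply]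

/-- Automorphisms of `F` extend to `K`. -/
theorem exists_extend (τ : F ≃+* F) :
    ∃ σ : K ≃+* K, ∀ x, σ (algebraMap F K x) = algebraMap F K (τ x) := by
  obtain ⟨s, hs⟩ := exists_isTranscendenceBasis F K
  obtain ⟨σ, hσ⟩ := exists_of_mv _ hs (MvPolynomial.mapEquiv s τ)
  refine ⟨σ, fun x => ?_⟩
  have := hσ (C x)
  simpa using this

/-- A transcendental element is moved by an automorphism by one. -/
theorem exists_shift {x : K} (hx : Transcendental F x) : ∃ σ : K ≃ₐ[F] K, σ x = x + 1 := by
  classical
  have h1 : AlgebraicIndepOn F id ({x} : Set K) :=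
    algebraicIndependent_unique_type_iff.2 hx
  obtain ⟨s, hs, hb⟩ := exists_isTranscendenceBasis_superset h1
  have hxs : x ∈ s := hs rfl
  let f : s → MvPolynomial s F := fun y => if y = ⟨x, hxs⟩ then X y + 1 else X y
  let g : s → MvPolynomial s F := fun y => if y = ⟨x, hxs⟩ then X y - 1 else X y
  have hfg : (aeval f).comp (aeval g) = AlgHom.id F (MvPolynomial s F) := by
    ext1 y
    by_cases hy : y = ⟨x, hxs⟩
    · simp [f, g, hy]
    · simp [f, g, hy]
  have hgf : (aeval g).comp (aeval f) = AlgHom.id F (MvPolynomial s F) := by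
    ext1 y
    by_cases hy : y = ⟨x, hxs⟩
    · simp [f, g, hy]
    · simp [f, g, hy]
  let e : MvPolynomial s F ≃ₐ[F] MvPolynomial s F := AlgEquiv.ofAlgHom (aeval f) (aeval g) hfg hgf
  obtain ⟨σ, hσ⟩ := exists_of_mv _ hb e.toRingEquiv
  have hF : ∀ a : F, σ (algebraMap F K a) = algebraMap F K a := by
    intro a
    have h2 := hσ (C a)
    have h3 : e.toRingEquiv (C a) = C a := e.commutes a
    rw [h3] at h2
    simpa using h2
  refine ⟨AlgEquiv.ofRingEquiv (f := σ) hF, ?_⟩
  have h2 := hσ (X ⟨x, hxs⟩)
  have h3 : e.toRingEquiv (X ⟨x, hxs⟩) = X ⟨x, hxs⟩ + 1 := by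
    change aeval f (X ⟨x, hxs⟩) = _
    simp [f]
  rw [h3] at h2
  simpa using h2

/-- An element fixed by a subgroup of finite index is algebraic. -/
theorem isAlgebraic_of_fixed [CharZero F] (H : Subgroup (K ≃ₐ[F] K)) [H.FiniteIndex] {x : K}
    (hx : ∀ σ ∈ H, σ x = x) : IsAlgebraic F x := by
  by_contra hcon
  have : CharZero K := charZero_of_injective_algebraMap (algebraMap F K).injective
  obtain ⟨σ, hσ⟩ := exists_shift (F := F) (K := K) hcon
  obtain ⟨n, hn, -, hm⟩ := Subgroup.exists_pow_mem_of_index_ne_zero (H := H)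
    Subgroup.FiniteIndex.index_ne_zero σ
  have h1 : ∀ n : ℕ, (σ ^ n) x = x + n := by
    intro n
    induction n with
    | zero => simp
    | succ n ih =>
      rw [pow_succ', AlgEquiv.mul_apply, ih, map_add, hσ, map_natCast]
      push_cast
      ring
  have h2 := hx _ hm
  rw [h1] at h2
  have h3 : (n : K) = 0 := by
    have := congrArg (fun y => y - x) h2
    simpa using this
  exact hn.ne' (by exact_mod_cast h3)

/-- The coordinates of a finite-dimensional space of functions: reduced echelon form. -/
theorem exists_coords {ι : Type} (n : ℕ) : ∀ (W : Submodule K (ι → K)) [FiniteDimensional K W],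
    Module.finrank K W = n → ∃ I : Finset ι, (∀ f ∈ W, (∀ i ∈ I, f i = 0) → f = 0) ∧
      ∀ c : ι → K, ∃ f ∈ W, ∀ i ∈ I, f i = c i := by
  classical
  induction n with
  | zero =>
    intro W _ hn
    have hW : W = ⊥ := Submodule.finrank_eq_zero.1 hn
    refine ⟨∅, fun f hf _ => ?_, fun c => ⟨0, W.zero_mem, fun i hi => absurd hi (by simp)⟩⟩
    rw [hW] at hf
    exact (Submodule.mem_bot K).1 hf
  | succ n ih =>
    intro W _ hn
    obtain ⟨f, hf, hf0⟩ : ∃ f ∈ W, f ≠ 0 := by
      by_contra hcon
      push Not at hcon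
      have hW : W = ⊥ := (Submodule.eq_bot_iff W).2 hcon
      rw [hW, finrank_bot] at hn
      omega
    obtain ⟨i, hi⟩ : ∃ i, f i ≠ 0 := by
      by_contra hcon
      push Not at hcon
      exact hf0 (funext hcon)
    let ev : (ι → K) →ₗ[K] K := LinearMap.proj i
    let W' : Submodule K (ι → K) := W ⊓ LinearMap.ker ev
    have hlt : Module.finrank K W' = n := by
      have h1 := LinearMap.finrank_range_add_finrank_ker (ev.comp W.subtype)
      have h2 : LinearMap.range (ev.comp W.subtype) = ⊤ := by
        rw [LinearMap.range_eq_top]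
        intro c
        refine ⟨⟨(c * (f i)⁻¹) • f, W.smul_mem _ hf⟩, ?_⟩
        change (c * (f i)⁻¹) * f i = c
        field_simp
      have h3 : Module.finrank K (LinearMap.ker (ev.comp W.subtype)) = Module.finrank K W' := by
        have h4 : (LinearMap.ker (ev.comp W.subtype)).map W.subtype = W' := by
          rw [LinearMap.ker_comp, Submodule.map_comap_subtype]
        rw [← h4]
        exact (LinearEquiv.finrank_eq (Submodule.equivMapOfInjective W.subtype
          W.injective_subtype _))
      rw [h2, finrank_top, Module.finrank_self, h3, hn] at h1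
      omega
    have : FiniteDimensional K W' := Submodule.finiteDimensional_of_le inf_le_left
    obtain ⟨I, hI, hI'⟩ := ih W' hlt
    refine ⟨insert i I, fun g hg h0 => ?_, fun c => ?_⟩
    · refine hI g ⟨hg, ?_⟩ fun j hj => h0 j (Finset.mem_insert_of_mem hj)
      exact h0 i (Finset.mem_insert_self i I)
    · obtain ⟨g, hg, hgI⟩ := hI' fun j => c j - (c i * (f i)⁻¹) * f j
      refine ⟨g + (c i * (f i)⁻¹) • f, W.add_mem hg.1 (W.smul_mem _ hf), fun j hj => ?_⟩
      rw [Finset.mem_insert] at hj
      rcases hj with rfl | hj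
      · have : g j = 0 := hg.2
        change g j + (c j * (f j)⁻¹) * f j = c j
        rw [this]
        field_simp
        ring
      · change g j + (c i * (f i)⁻¹) * f j = c j
        rw [hgI j hj]
        ring

/-- A finite-dimensional space of functions stable under a group of automorphisms is spanned by
functions with fixed values. -/
theorem span_fixed {ι : Type} (W : Submodule K (ι → K)) [FiniteDimensional K W]
    (H : Subgroup (K ≃ₐ[F] K)) (hW : ∀ σ ∈ H, ∀ f ∈ W, (fun i => σ (f i)) ∈ W) :
    W = Submodule.span K {f | f ∈ W ∧ ∀ i, ∀ σ ∈ H, σ (f i) = f i} := by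
  classical
  obtain ⟨I, hI, hI'⟩ := exists_coords (Module.finrank K W) W rfl
  refine le_antisymm ?_ (Submodule.span_le.2 fun f hf => hf.1)
  choose g hg hgI using fun j : ι => hI' (Pi.single j 1)
  have hfix : ∀ j ∈ I, g j ∈ {f | f ∈ W ∧ ∀ i, ∀ σ ∈ H, σ (f i) = f i} := by
    intro j _
    refine ⟨hg j, fun i σ hσ => ?_⟩
    have h1 : (fun i => σ (g j i)) - g j = 0 := by
      refine hI _ (W.sub_mem (hW σ hσ _ (hg j)) (hg j)) fun k hk => ?_
      change σ (g j k) - g j k = 0
      rw [hgI j k hk]
      by_cases hkj : k = j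
      · subst hkj
        simp
      · simp [Pi.single_eq_of_ne hkj]
    have := congrFun h1 i
    exact sub_eq_zero.1 this
  intro f hf
  have h2 : f = ∑ j ∈ I, f j • g j := by
    refine sub_eq_zero.1 (hI _ (W.sub_mem hf (W.sum_mem fun j _ => W.smul_mem _ (hg j)))
      fun k hk => ?_)
    change f k - (∑ j ∈ I, f j • g j) k = 0
    rw [Finset.sum_apply, Finset.sum_eq_single k]
    · rw [Pi.smul_apply, hgI k k hk]
      simp
    · intro j hj hjk
      rw [Pi.smul_apply, hgI j k hk, Pi.single_eq_of_ne hjk.symm, smul_zero]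
    · exact fun h => absurd hk h
  rw [h2]
  exact Submodule.sum_mem _ fun j hj => Submodule.smul_mem _ _ (Submodule.subset_span (hfix j hj))

/-- A stable finite-dimensional space of functions is spanned by functions with algebraic
values. -/
theorem span_alg [CharZero F] {ι : Type} (W : Submodule K (ι → K)) [FiniteDimensional K W]
    (H : Subgroup (K ≃ₐ[F] K)) [H.FiniteIndex]
    (hW : ∀ σ ∈ H, ∀ f ∈ W, (fun i => σ (f i)) ∈ W) :
    W = Submodule.span K {f | f ∈ W ∧ ∀ i, IsAlgebraic F (f i)} := by
  refine le_antisymm ?_ (Submodule.span_le.2 fun f hf => hf.1)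
  conv_lhs => rw [span_fixed W H hW]
  exact Submodule.span_mono fun f hf => ⟨hf.1, fun i => isAlgebraic_of_fixed H (hf.2 i)⟩

end general

end Vale.Agent.P022.H694
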